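import Vale.Agent.P057FI.Plan
import Vale.Agent.P057PL.Pull
import Vale.Agent.P057RG.Up
import Vale.Agent.P057EN.Dbl

/-!
Demotion, continuity of the kernel, pigeonhole.
-/

set_option linter.all false

open Matrix Finset Real
open Vale.Agent.P267.H775 Vale.Agent.P057G Vale.Agent.P057PC Vale.Agent.P057TP Vale.Agent.P057SY
open Vale.Agent.P057FI
open Vale.Agent.P057PL (k0 none_fo sb_wo)
open Vale.Agent.P057DP (thK thK_lip tl_le abs_thK_le)
open Vale.Agent.P057GH (pd_Gam tri_pr summable_w w_nonneg)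

namespace Vale.Agent.P057F2

noncomputable section

theorem num_a {Y : ℝ} (hY : 12 ≤ Y) : 4 * Y * exp Y ≤ exp Y ^ 2 := by
  have := quadratic_le_exp_of_nonneg (by linarith : 0 ≤ Y)
  rw [sq]
  exact mul_le_mul_of_nonneg_right (by nlinarith) (exp_pos _).le

theorem num_b {Y n : ℝ} (hY : 12 ≤ Y) (hn : n ≤ exp Y) :
    2 * π * (Y * (Y * (exp Y * exp Y) * (Y * exp (-Y ^ 2)))) + 2 * (exp (-(π * (4 * Y) / 2)) * n) ≤
      exp (-(2 * Y)) / 2 := by
  have h1 : Y ≤ exp Y := by linarith [add_one_le_exp Y]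
  have h2 : Y * (Y * (exp Y * exp Y) * (Y * exp (-Y ^ 2))) ≤ exp (-(5 * Y)) := by
    calc _ ≤ exp Y * (exp Y * (exp Y * exp Y) * (exp Y * exp (-Y ^ 2))) := by gcongr
      _ ≤ _ := by simp only [← exp_add]; exact exp_le_exp.2 (by nlinarith)
  have h3 : exp (-(π * (4 * Y) / 2)) * n ≤ exp (-(5 * Y)) := by
    refine (mul_le_mul_of_nonneg_left hn (exp_pos _).le).trans ?_
    rw [← exp_add]
    exact exp_le_exp.2 (by nlinarith [pi_gt_three])
  have h4 : exp (-(2 * Y)) = exp (-(5 * Y)) * exp (3 * Y) := by rw [← exp_add]; ring_nf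
  have h5 := mul_le_mul pi_le_four h2 (by positivity) (by norm_num)
  nlinarith [add_one_le_exp (3 * Y), exp_pos (-(5 * Y))]

/-- continuity of the normalised kernel -/
theorem ker_near {J A I : Type} [Fintype J] [DecidableEq J] [Fintype A] {G : Matrix J J ℝ}
    (hG : G.PosDef) (K : Submodule ℤ (J → ℤ)) {Y : ℝ} (hY : 12 ≤ Y)
    (hJ : (Fintype.card J : ℝ) ≤ Y) (hA : (Fintype.card A : ℝ) ≤ Y) {S : Finset I}
    (hS : (S.card : ℝ) ≤ Y) (gk : ∀ j, G j j ≤ exp Y) {w : A → J → ℤ}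
    (hw : ∀ a j, |(w a j : ℝ)| ≤ exp Y) {t : I → A → ℝ}
    (ht : ∀ F ∈ S, ∀ a, ∃ n : ℤ, |t F a - n| ≤ exp (-Y ^ 2)) {u u' : J → ℝ}
    (h : ∀ k ∈ K, toR k ⬝ᵥ u - toR k ⬝ᵥ u' = ∑ a, ((w a ⬝ᵥ k : ℤ) : ℝ) * ∑ F ∈ S, t F a) :
    |thK G K u / th G 0 - thK G K u' / th G 0| ≤ exp (-(2 * Y)) / 2 := by
  classical
  choose! n hn using ht
  have y0 : 0 ≤ Y := by linarith
  have h1 := thK_lip hG K u u' (τ := Y * (Y * (exp Y * exp Y) * (Y * exp (-Y ^ 2)))) (R := 4 * Y)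
    (by positivity) fun k hk hR => ⟨∑ a, (w a ⬝ᵥ k) * ∑ F ∈ S, n F a, by
      have k1 : ∀ j, |(k j : ℝ)| ≤ exp Y := fun j => by
        have := P057T1.coord_le hG.inv (toR k) j
        rw [nonsing_inv_nonsing_inv _ hG.det_pos.ne'.isUnit, show qq G (Pi.single j 1) = G j j by
          simp [qq]] at this
        exact abs_le_of_sq_le_sq' (this.trans ((mul_le_mul hR.le (gk j) hG.diag_pos.le
          (by positivity)).trans (num_a hY))) (exp_pos _).le |> abs_le.2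
      rw [h k hk]
      push_cast
      rw [← sum_sub_distrib]
      refine (abs_sum_le_sum_abs _ _).trans ((sum_le_card_nsmul _ _ _ fun a _ => ?_).trans
        ((nsmul_eq_mul _ _).trans_le (mul_le_mul_of_nonneg_right hA (by positivity))))
      rw [← mul_sub, abs_mul, ← sum_sub_distrib]
      refine mul_le_mul ?_ ((abs_sum_le_sum_abs _ _).trans ((sum_le_card_nsmul _ _ _
        fun F hF => hn F hF a).trans ((nsmul_eq_mul _ _).trans_le
          (mul_le_mul_of_nonneg_right hS (exp_pos _).le)))) (abs_nonneg _) (by positivity)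
      simp only [dotProduct, Int.cast_sum, Int.cast_mul]
      refine (abs_sum_le_sum_abs _ _).trans ((sum_le_card_nsmul _ _ _ fun j _ => ?_).trans
        ((nsmul_eq_mul _ _).trans_le (mul_le_mul_of_nonneg_right hJ (by positivity))))
      rw [abs_mul]
      exact mul_le_mul (hw a j) (k1 j) (abs_nonneg _) (exp_pos _).le⟩
  have h2 : √2 ^ Fintype.card J ≤ exp Y := by
    refine le_trans ?_ (exp_le_exp.2 hJ)
    rw [← exp_one_pow]
    exact pow_le_pow_left₀ (sqrt_nonneg _)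
      (sqrt_le_iff.2 ⟨(exp_pos _).le, by nlinarith [add_one_le_exp (1 : ℝ)]⟩) _
  have h3 := mul_le_mul_of_nonneg_right (num_b hY h2) (th_pos hG 0).le
  rw [← sub_div, abs_div, abs_of_pos (th_pos hG 0), div_le_iff₀ (th_pos hG 0)]
  linarith [tl_le hG (4 * Y)]

variable {C W E J : Type} [Fintype W] [DecidableEq W] [Fintype E] [DecidableEq E] [Fintype J]
  [DecidableEq J] {T : Tow} {cl : W → C} {m s b τ : ℕ} {N Y Y' : ℝ} {Z : Sys T W Unit}

theorem sz_mono {V ι : Type} {X : Xt V ι E} (h : X.Sz τ Y) (hY : Y ≤ Y') : X.Sz τ Y' :=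
  ⟨h.tr, h.card.trans hY, h.sep, h.cx.trans (exp_le_exp.2 hY)⟩

theorem dg_sum {X : Xt (Option W) (Lb T cl Unit m) E} {A : Type} [Fintype A] (c : A → ℝ)
    {φ : A → (Lb T cl Unit m ⊕ E → ℝ) → ℝ} (h : ∀ a, Dg X b (φ a)) :
    Dg X b fun x => ∑ a, c a * φ a x :=
  ⟨fun x x' h1 h2 => sum_congr rfl fun a _ => by rw [(h a).on x x' h1 h2],
    fun v => Aff.sum _ c fun a _ => (h a).aff v, Lin.sum _ c fun a _ => (h a).lin, fun F hF x => by
      simp only [MS.alt, mul_sum]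
      rw [sum_comm]
      refine sum_eq_zero fun a _ => ?_
      simp only [mul_left_comm _ (c a), ← mul_sum]
      exact mul_eq_zero_of_right _ ((h a).deg F hF x)⟩

theorem abs_H {D : KD T cl m E J} (h1 : D.Gk.PosDef) (h2 : ∀ z, 0 ≤ D.u z ∧ D.u z ≤ 1)
    {f : ℤ → ℝ} {θ M : ℝ} (h : ∀ z, |Z.Ex0 cl m f θ z| ≤ M) (z) : |D.H Z f θ z| ≤ M := by
  rw [KD.H, abs_mul, abs_mul, abs_of_nonneg (h2 z).1, abs_div, abs_of_pos (th_pos h1 0)]
  exact (mul_le_of_le_one_left (abs_nonneg _) (mul_le_one₀ (h2 z).2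
    (div_nonneg (abs_nonneg _) (th_pos h1 0).le)
    ((div_le_one (th_pos h1 0)).2 (abs_thK_le h1 _ _)))).trans (h z)

/-- a state is split along a partition -/
theorem st_split (hT : T.Ok s N) (hZ : Z.Ok) {H : (Lb T cl Unit m → ℤ) → ℝ} {Cs : Type}
    [Fintype Cs] {G : Cs → (Lb T cl Unit m → ℤ) → ℝ} (cs : (Lb T cl Unit m → ℤ) → Cs)
    {B M κ σ r : ℝ} (hH : ∀ z, |H z| ≤ M) (hG : ∀ a z, |G a z| ≤ M)
    (h0 : ∀ a z, cs z ≠ a → G a z = 0)
    (hb : ∀ z, qq (Gam T cl Unit m) (Z.ps cl m z) ≤ r → H z - κ / 2 ≤ G (cs z) z) (k0 : 0 ≤ κ)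
    (ht : 4 * M * exp (Fintype.card (Lb T cl Unit m) - r) *
      ms (Gam T cl Unit m) (fun _ => 0) ≤ σ) (h : Z.St cl m H B κ σ) :
    ∃ a, Z.St cl m (G a) M (κ / (2 * Fintype.card Cs)) (σ / (2 * Fintype.card Cs)) := by
  classical
  have M0 := (abs_nonneg _).trans (hH 0)
  have n0 : (0 : ℝ) < Fintype.card Cs := by exact_mod_cast Fintype.card_pos_iff.2 ⟨cs 0⟩
  have s1 : ∀ {F : (Lb T cl Unit m → ℤ) → ℝ} {M : ℝ}, (∀ z, |F z| ≤ M) → ∀ k : ℝ,
      Summable fun z => Z.w cl m z * (F z - k) := fun hF k =>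
    summable_mul_real (summable_w hT hZ) (w_nonneg Z) fun z =>
      (abs_sub _ _).trans (add_le_add (hF z) (le_refl |k|))
  let g : (Lb T cl Unit m → ℤ) → ℝ := fun z =>
    if qq (Gam T cl Unit m) (Z.ps cl m z) ≤ r then 0 else 2 * M
  have g1 : ∀ z, |g z| ≤ 2 * M := fun z => by
    simp only [g]; split_ifs <;> simp [abs_of_nonneg, M0]
  have h1 := (le_abs_self _).trans (P057SH.tail_le (pd_Gam hT.pd cl Unit m) (P057SH.gam_blk hT)
    (tri_pr hT hZ) r (by positivity) g1 fun z hz => if_pos hz)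
  have h2 : ∑' z, Z.w cl m z * (H z - κ) ≤
      ∑ a, ∑' z, Z.w cl m z * (G a z - κ / (2 * Fintype.card Cs)) + ∑' z, Z.w cl m z * (g z - 0) := by
    rw [← Summable.tsum_finsetSum fun a _ => s1 (hG a) _,
      ← (summable_sum fun a _ => s1 (hG a) _).tsum_add (s1 g1 0)]
    refine (s1 hH κ).tsum_le_tsum (fun z => ?_) ((summable_sum fun a _ => s1 (hG a) _).add (s1 g1 0))
    rw [← mul_sum, ← mul_add, sum_sub_distrib, sum_eq_single (cs z) (fun a _ e => h0 a z e.symm)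
      (by simp), sum_const, card_univ, nsmul_eq_mul, show (Fintype.card Cs : ℝ) *
        (κ / (2 * Fintype.card Cs)) = κ / 2 by field_simp]
    refine mul_le_mul_of_nonneg_left ?_ (w_nonneg Z z)
    simp only [g]
    split_ifs with e
    · linarith [hb z e]
    · linarith [(abs_le.1 (hH z)).2, (abs_le.1 (hG (cs z) z)).1]
  simp only [sub_zero] at h2
  obtain ⟨a, -, ha⟩ := exists_le_of_sum_le (s := univ) ⟨cs 0, mem_univ _⟩
    (f := fun _ => σ / (2 * Fintype.card Cs))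
    (g := fun a => ∑' z, Z.w cl m z * (G a z - κ / (2 * Fintype.card Cs))) (by
      rw [sum_const, card_univ, nsmul_eq_mul, show (Fintype.card Cs : ℝ) *
        (σ / (2 * Fintype.card Cs)) = σ / 2 by field_simp]
      change ∑' z, Z.w cl m z * g z ≤ _ at h1
      linarith [h.2])
  exact ⟨a, hG a, ha⟩

theorem k0_ps (Z : Sys T W Unit) {z z' : Lb T cl Unit m → ℤ}
    (h : ∀ l, l.bs = none → z l = z' l) : k0 (Z.ps cl m z) = k0 (Z.ps cl m z') := funext fun l => by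
  unfold k0
  split_ifs with e
  · exact congrArg₂ (· - ·) (congrArg Int.cast (h l e))
      (sb_wo Z.fam (fun k hk => congrArg Int.cast (h k hk)) l e)
  · rfl

theorem qq_k0 (hT : T.Ok s N) (v : Lb T cl Unit m → ℝ) :
    qq (Gam T cl Unit m) (k0 v) ≤ qq (Gam T cl Unit m) v :=
  P057EN.qq_cut (pd_Gam hT.pd cl Unit m) (D := fun l => l.bs = none)
    (P057EN.ort_Gam fun _ _ _ e h => e ▸ h) v

theorem num_c {Y x n : ℝ} {c : ℕ} (hY : 12 ≤ Y) (hx : 0 ≤ x) (n0 : 0 < n) (hn : n ≤ exp (Y ^ c)) :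
    x * exp (-Y ^ (c + 12)) ≤ x / (2 * n) := by
  have h1 : 1 ≤ Y ^ c := one_le_pow₀ (by linarith)
  have h2 : Y ≤ Y ^ 12 := le_self_pow₀ (by linarith) (by norm_num)
  rw [exp_neg, ← div_eq_mul_inv]
  refine div_le_div_of_nonneg_left hx (by positivity) ?_
  calc 2 * n ≤ exp 1 * exp (Y ^ c) := by gcongr; linarith [add_one_le_exp (1 : ℝ)]
    _ ≤ _ := by rw [← exp_add, pow_add]; exact exp_le_exp.2 (by nlinarith)

theorem fin2 (s τ : ℕ) (hD : DEM s τ) : FIN2 s τ := by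
  obtain ⟨c, hD⟩ := hD
  refine ⟨c + 12, fun N T C W E J A K _ _ _ _ _ _ _ _ _ cl m b Z D φ w f θ B κ σ Y Y' r X₂ M Γ hT hZ
    hb hc hW hA htp hk hφ hw hK h2 s2 y2 y4 t2 hF hE hκ hσ ht hS => ?_⟩
  classical
  push_cast at hc
  have c0 : (0 : ℝ) ≤ c := Nat.cast_nonneg _
  have hY : 12 ≤ Y := by linarith
  have p1 : Y ^ c ≤ Y ^ (c + 12) := pow_le_pow_right₀ (by linarith) (by omega)
  have p2 : Y ≤ Y ^ (c + 12) := le_self_pow₀ (by linarith) (by omega)
  have κ0 := (exp_pos _).le.trans hκ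
  obtain ⟨v, v1, v2⟩ := rnd _ _ _ _ X₂ τ Y' h2 s2 y2
  have v3 : WO v := fun z z' h => v2 z z' fun l k e =>
    h l (by_contra fun n => t2 k (e ((none_fo l).2 n)))
  let Gd : (Lb T cl Unit m → ℤ) → Prop := fun z =>
    D.u z ≠ 0 ∧ qq (Gam T cl Unit m) (k0 (Z.ps cl m z)) ≤ r
  obtain ⟨Cs, _, cs, a1, a2, a3⟩ := hD T C W E K cl m b D.X X₂ M D.n v Gd Y hb hT.pos (by linarith)
    hW hk.ok hk.sz hk.tf h2 (sz_mono s2 (by linarith)) t2 hk.wn v3 (fun F h => (hF F h).fm)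
    fun z hz => ⟨hk.ps z hz.1, (v1 z).trans (exp_le_exp.2 y4),
      fun F h => (hF F h).pos z _ hz.2 (v1 z)⟩
  choose E' i1 i2 X' n' b1 b2 b3 b4 b5 b6 using a3
  choose φ' b7 b8 using fun a a₀ => b6 a _ (hφ a₀)
  let D' : ∀ a, KD T cl m (E' a) J := fun a => ⟨X' a, fun x j => ∑ a₀, w a₀ j * φ' a a₀ x, D.Gk,
    D.K, fun z => if Gd z ∧ cs z = a then D.u z else 0, n' a,
    fun z j => D.γ z j - ∑ a₀, w a₀ j * ∑ F ∈ tops cl b, Γ F a₀ (jn z (v z))⟩
  have d1 : ∀ a, (D' a).Ok b (2 * τ) (Y ^ (c + 12)) := fun a => ⟨b1 a, sz_mono (b2 a) p1, b3 a,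
    hk.cj.trans p2, fun j => dg_sum _ (b7 a), hk.pd, fun j => (hk.gk j).trans (exp_le_exp.2 p2),
    fun z z' h => by simp only [D', Gd, hk.wu z z' h, k0_ps Z h, a1 z z' h], b4 a,
    fun z z' h => funext fun j => congrArg₂ (· - ·) (congrFun (hk.wg z z' h) j)
      (sum_congr rfl fun a₀ _ => congrArg _ (sum_congr rfl fun F hF' => (hF F hF').wo a₀ _ _
        (fun l e => congrArg Int.cast (h l e)) fun k => congrArg Int.cast
          (congrFun (v3 z z' h) k))),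
    fun z => by
      simp only [D']
      split_ifs
      exacts [hk.u01 z, ⟨le_rfl, zero_le_one⟩],
    fun z hz => by
      have : Gd z ∧ cs z = a := by_contra fun n => hz (if_neg n)
      exact (b5 a z this.1 this.2).trans (exp_le_exp.2 p1)⟩
  refine (st_split hT hZ (G := fun a => (D' a).H Z f θ) cs (abs_H hk.pd hk.u01 hE)
    (fun a => abs_H (D := D' a) hk.pd (d1 a).u01 hE)
    (fun a z e => by simp only [KD.H, D', if_neg fun n : Gd z ∧ cs z = a => e n.2, zero_mul])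
    (fun z hz => ?_) κ0 ht hS).elim fun a ha => ?_
  swap
  · have n0 : (0 : ℝ) < Fintype.card Cs := by exact_mod_cast Fintype.card_pos_iff.2 ⟨a⟩
    exact KD.ks (d1 a) (P057RG.st_mono hT hZ ha (num_c hY κ0 n0 a2) (num_c hY hσ n0 a2))
  by_cases u0 : D.u z = 0
  · simp only [KD.H, D', u0, ite_self, zero_mul]
    linarith
  have g : Gd z := ⟨u0, (qq_k0 hT _).trans hz⟩
  have hw' : ∀ (k : J → ℤ) (x : A → ℝ), toR k ⬝ᵥ (fun j => ∑ a, (w a j : ℝ) * x a) =
      ∑ a, ((w a ⬝ᵥ k : ℤ) : ℝ) * x a := fun k x => by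
    simp only [dotProduct, mul_sum, Int.cast_sum, Int.cast_mul, sum_mul]
    rw [sum_comm]
    exact sum_congr rfl fun a _ => sum_congr rfl fun j _ => by simp only [toR]; ring
  have e := ker_near hk.pd D.K hY hk.cj hA htp hk.gk hw (u := D.Φ (jn z (D.n z)) - D.γ z)
    (u' := (D' (cs z)).Φ (jn z (n' (cs z) z)) - (D' (cs z)).γ z) (t := fun F a₀ =>
      cmp (xt (sk T cl m) D.X) (fp F) (φ a₀) (Sum.elim (toR z) (M F (jn z (v z)))) -
        Γ F a₀ (jn z (v z))) (fun F h a₀ =>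
      ((hF F h).nr z _ hz (v1 z) a₀).imp fun n hn => by rwa [sub_right_comm]) fun k hk' => by
      rw [dotProduct_sub, dotProduct_sub, hK k hk']
      simp only [D', b8 _ _ z g rfl]
      rw [hw', show (fun j => D.γ z j - ∑ a₀, (w a₀ j : ℝ) * ∑ F ∈ tops cl b, Γ F a₀ (jn z (v z))) =
        D.γ z - fun j => ∑ a₀, (w a₀ j : ℝ) * ∑ F ∈ tops cl b, Γ F a₀ (jn z (v z)) from rfl,
        dotProduct_sub, hw']
      simp only [mul_sub, sum_sub_distrib]
      ring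
  have e2 := mul_le_mul (mul_le_mul (hk.u01 z).2 e (abs_nonneg _) zero_le_one) (hE z)
    (abs_nonneg _) (by positivity)
  rw [← abs_of_nonneg (hk.u01 z).1, ← abs_mul, ← abs_mul, one_mul, div_mul_eq_mul_div, ← exp_add,
    show -(2 * Y) + Y = -Y by ring] at e2
  rw [KD.H, KD.H, show (D' (cs z)).u z = D.u z from if_pos ⟨g, rfl⟩]
  change _ ≤ _ * (thK D.Gk D.K (_ - _) / th D.Gk 0) * _
  have e3 := (abs_le.1 e2).2
  rw [mul_sub, sub_mul] at e3
  exact sub_le_comm.1 (e3.trans (by linarith))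

end

end Vale.Agent.P057F2
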